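import Vale.Agent.P358.Entropy

/-!
Infinite matrices on the occupation numbers of n modes, their finite sections and the entropy as the
limit of the section entropies.
-/

namespace Vale.Agent.P369.Extend

open Matrix Real Filter Topology
open Vale.Agent.P358 (eSum eSum_def spectral_form)
open scoped ComplexOrder Matrix

/-- occupation numbers of `n` modes -/
abbrev Idx (n : ℕ) := Fin n → ℕ

variable {n : ℕ}

/-- total photon number -/
def tot (k : Idx n) : ℕ := ∑ i, k i

/-- indices of total photon number at most `M` -/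
def box (n M : ℕ) : Finset (Idx n) :=
  (Fintype.piFinset fun _ => Finset.range (M + 1)).filter fun k => tot k ≤ M

lemma mem_box {M : ℕ} {k : Idx n} : k ∈ box n M ↔ tot k ≤ M := by
  simp only [box, Finset.mem_filter, Fintype.mem_piFinset, Finset.mem_range, and_iff_right_iff_imp]
  intro h i
  have : k i ≤ tot k := Finset.single_le_sum (fun j _ => Nat.zero_le (k j)) (Finset.mem_univ i)
  omega

lemma box_mono {M M' : ℕ} (h : M ≤ M') : box n M ⊆ box n M' := fun k hk => by
  rw [mem_box] at hk ⊢; omega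

lemma tendsto_box : Tendsto (fun M => box n M) atTop atTop :=
  tendsto_atTop_finset_of_monotone (fun _ _ h => box_mono h) fun k => ⟨tot k, mem_box.2 le_rfl⟩

/-- a finite section -/
def sec (A : Idx n → Idx n → ℂ) (M : ℕ) : Matrix (box n M) (box n M) ℂ := fun k l => A k l

lemma sec_apply (A : Idx n → Idx n → ℂ) (M : ℕ) (k l : box n M) : sec A M k l = A k l := rfl

lemma sec_ite_eq_one (M : ℕ) : sec (fun k l : Idx n => if k = l then (1 : ℂ) else 0) M = 1 := by
  ext k l
  by_cases h : k = l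
  · subst h; simp [sec_apply]
  · have : (k : Idx n) ≠ l := fun e => h (Subtype.ext e)
    simp [sec_apply, Matrix.one_apply_ne h, this]

/-- all finite sections positive semidefinite -/
def IsPsd (A : Idx n → Idx n → ℂ) : Prop := ∀ M, (sec A M).PosSemidef

lemma IsPsd.diag_nonneg {A : Idx n → Idx n → ℂ} (h : IsPsd A) (k : Idx n) : 0 ≤ (A k k).re := by
  have := (h (tot k)).diag_nonneg (i := (⟨k, mem_box.2 le_rfl⟩ : box n (tot k)))
  exact (Complex.le_def.1 this).1

/-- positive, trace at most one and mean photon number at most `E` -/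
structure IsSubState (A : Idx n → Idx n → ℂ) (E : ℝ) : Prop where
  psd : IsPsd A
  mass : ∀ F : Finset (Idx n), ∑ k ∈ F, (A k k).re ≤ 1
  energy : ∀ F : Finset (Idx n), ∑ k ∈ F, (tot k : ℝ) * (A k k).re ≤ E

/-- The entropy: limit of the entropies of the finite sections. -/
noncomputable def Ent (A : Idx n → Idx n → ℂ) : ℝ := liminf (fun M => eSum (sec A M)) atTop

/-! ### Peierls inequality -/

variable {ι κ : Type*} [Fintype ι] [DecidableEq ι] [Fintype κ] [DecidableEq κ]

omit [DecidableEq κ] in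
lemma peierls {A : Matrix ι ι ℂ} (hA : A.PosSemidef) (W : Matrix ι κ ℂ)
    (hcol : ∀ j, (Wᴴ * W) j j = 1) (hrow : W * Wᴴ = 1) :
    eSum A ≤ ∑ j, negMulLog ((Wᴴ * A * W) j j).re := by
  have hH := hA.isHermitian
  set V : Matrix ι ι ℂ := (hH.eigenvectorUnitary : Matrix ι ι ℂ) with hV
  have hVV : V * Vᴴ = 1 := Unitary.coe_mul_star_self hH.eigenvectorUnitary
  have hVV' : Vᴴ * V = 1 := mul_eq_one_comm.1 hVV
  set Z : Matrix ι κ ℂ := Vᴴ * W with hZ
  set lam := hH.eigenvalues with hlam
  set w : ι → κ → ℝ := fun i j => Complex.normSq (Z i j) with hw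
  have hsum : ∀ j, ∑ i, w i j = 1 := by
    intro j
    have e : (Zᴴ * Z) j j = (Wᴴ * W) j j := by
      rw [hZ, conjTranspose_mul, conjTranspose_conjTranspose, Matrix.mul_assoc,
        ← Matrix.mul_assoc V, hVV, Matrix.one_mul]
    have h2 : (Zᴴ * Z) j j = ((∑ i, w i j : ℝ) : ℂ) := by
      simp [Matrix.mul_apply, hw, Complex.normSq_eq_conj_mul_self]
    rw [e, hcol] at h2
    exact_mod_cast h2.symm
  have hsum' : ∀ i, ∑ j, w i j = 1 := by
    intro i
    have e : (Z * Zᴴ) i i = 1 := by
      rw [hZ, conjTranspose_mul, conjTranspose_conjTranspose, Matrix.mul_assoc,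
        ← Matrix.mul_assoc W, hrow, Matrix.one_mul, hVV', Matrix.one_apply_eq]
    have h2 : (Z * Zᴴ) i i = ((∑ j, w i j : ℝ) : ℂ) := by
      simp [Matrix.mul_apply, hw, Complex.normSq_eq_conj_mul_self, mul_comm]
    rw [e] at h2
    exact_mod_cast h2.symm
  have hdiag : ∀ j, ((Wᴴ * A * W) j j).re = ∑ i, w i j * lam i := by
    intro j
    have e : Wᴴ * A * W = Zᴴ * diagonal (fun i => ((lam i : ℝ) : ℂ)) * Z := by
      rw [hZ, conjTranspose_mul, conjTranspose_conjTranspose]
      conv_lhs => rw [spectral_form hH]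
      simp only [← hV, ← hlam, Matrix.mul_assoc]
    have e2 : (Wᴴ * A * W) j j = ((∑ i, w i j * lam i : ℝ) : ℂ) := by
      rw [e, Matrix.mul_apply, Complex.ofReal_sum]
      refine Finset.sum_congr rfl fun i _ => ?_
      rw [Matrix.mul_diagonal]
      simp only [Complex.ofReal_mul, hw, Complex.normSq_eq_conj_mul_self, conjTranspose_apply,
        Complex.star_def]
      ring
    rw [e2, Complex.ofReal_re]
  calc eSum A = ∑ i, negMulLog (lam i) := eSum_def hH
    _ = ∑ i, (∑ j, w i j) * negMulLog (lam i) := by simp [hsum']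
    _ = ∑ j, ∑ i, w i j • negMulLog (lam i) := by
        rw [Finset.sum_comm]; simp [Finset.sum_mul]
    _ ≤ ∑ j, negMulLog (∑ i, w i j • lam i) := Finset.sum_le_sum fun j _ =>
        concaveOn_negMulLog.le_map_sum (fun i _ => Complex.normSq_nonneg _) (hsum j)
          fun i _ => hA.eigenvalues_nonneg i
    _ = _ := by simp [hdiag]

lemma eSum_le_diag {A : Matrix ι ι ℂ} (hA : A.PosSemidef) :
    eSum A ≤ ∑ i, negMulLog (A i i).re := by
  simpa using peierls hA (1 : Matrix ι ι ℂ) (fun j => by simp) (by simp)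

lemma eSum_nonneg {A : Matrix ι ι ℂ} (hA : A.PosSemidef) (htr : A.trace.re ≤ 1) : 0 ≤ eSum A := by
  rw [eSum_def hA.isHermitian]
  refine Finset.sum_nonneg fun i _ => negMulLog_nonneg (hA.eigenvalues_nonneg i) ?_
  have h1 : A.trace.re = ∑ j, hA.isHermitian.eigenvalues j := by
    rw [hA.isHermitian.trace_eq_sum_eigenvalues]; simp
  linarith [Finset.single_le_sum (fun j _ => hA.eigenvalues_nonneg j) (Finset.mem_univ i)]

/-! ### Splitting off a tail -/

lemma sum_box_dite {M M' : ℕ} (h : M ≤ M') {β : Type*} [AddCommMonoid β] (f : box n M → β) :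
    ∑ k : box n M', (if hk : (k : Idx n) ∈ box n M then f ⟨k, hk⟩ else 0) = ∑ k, f k := by
  rw [Finset.sum_coe_sort (box n M') (fun k => if hk : k ∈ box n M then f ⟨k, hk⟩ else 0),
    ← Finset.sum_subset (box_mono h) (fun k _ hk => dif_neg hk),
    ← Finset.sum_coe_sort (box n M)]
  exact Finset.sum_congr rfl fun k _ => dif_pos k.2

lemma eSum_sec_split {A : Idx n → Idx n → ℂ} (hA : IsPsd A) {M M' : ℕ} (h : M ≤ M') :
    eSum (sec A M') ≤
      eSum (sec A M) + ∑ k ∈ box n M' \ box n M, negMulLog (A k k).re := by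
  classical
  have hH := (hA M).isHermitian
  set V : Matrix (box n M) (box n M) ℂ := (hH.eigenvectorUnitary : Matrix (box n M) (box n M) ℂ)
    with hV
  have hVV : V * Vᴴ = 1 := Unitary.coe_mul_star_self hH.eigenvectorUnitary
  have hVV' : Vᴴ * V = 1 := mul_eq_one_comm.1 hVV
  let R : Finset (Idx n) := box n M' \ box n M
  let W : Matrix (box n M') (box n M ⊕ R) ℂ := Matrix.of fun k =>
    Sum.elim (fun v => if hk : (k : Idx n) ∈ box n M then V ⟨k, hk⟩ v else 0)
      (fun q => if (k : Idx n) = q then 1 else 0)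
  have hWl : ∀ k v, W k (Sum.inl v) =
      if hk : (k : Idx n) ∈ box n M then V ⟨k, hk⟩ v else 0 := fun k v => rfl
  have hWr : ∀ k (q : R), W k (Sum.inr q) = if (k : Idx n) = q then 1 else 0 := fun k q => rfl
  have hRmem : ∀ q : R, (q : Idx n) ∈ box n M' ∧ (q : Idx n) ∉ box n M := fun q =>
    Finset.mem_sdiff.1 q.2
  have hrow : W * Wᴴ = 1 := by
    ext k l
    rw [Matrix.mul_apply, Fintype.sum_sum_type, Matrix.one_apply]
    simp only [conjTranspose_apply, hWl, hWr]
    by_cases hk : (k : Idx n) ∈ box n M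
    · have h2 : ∀ q : R, (k : Idx n) ≠ q := fun q e => (hRmem q).2 (e ▸ hk)
      simp only [hk, dif_pos, h2, if_false, zero_mul, Finset.sum_const_zero, add_zero]
      by_cases hl : (l : Idx n) ∈ box n M
      · have := congrFun (congrFun hVV ⟨k, hk⟩) ⟨l, hl⟩
        rw [Matrix.mul_apply, Matrix.one_apply] at this
        simp only [conjTranspose_apply] at this
        simp only [hl, dif_pos]
        rw [this]
        by_cases e : k = l
        · subst e; simp
        · rw [if_neg fun h' => e (Subtype.ext (congrArg (fun x : box n M => (x : Idx n)) h')),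
            if_neg e]
      · simp only [hl, dif_neg, not_false_eq_true, star_zero, mul_zero, Finset.sum_const_zero]
        rw [if_neg fun e => hl (by rw [← e]; exact hk)]
    · simp only [hk, dif_neg, not_false_eq_true, zero_mul, Finset.sum_const_zero, zero_add]
      have hkR : (k : Idx n) ∈ R := Finset.mem_sdiff.2 ⟨k.2, hk⟩
      rw [Finset.sum_eq_single_of_mem ⟨k, hkR⟩ (Finset.mem_univ _)]
      · by_cases hkl : k = l
        · subst hkl; simp
        · have : (l : Idx n) ≠ k := fun e => hkl (Subtype.ext e.symm)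
          simp [hkl, this]
      · intro q _ hq
        have : (k : Idx n) ≠ q := fun e => hq (Subtype.ext e.symm)
        simp [this]
  have hentry : ∀ (X : Matrix (box n M') (box n M') ℂ) j,
      (Wᴴ * X * W) j j = ∑ k, star (W k j) * ∑ l, X k l * W l j := by
    intro X j
    rw [Matrix.mul_assoc, Matrix.mul_apply]
    simp only [conjTranspose_apply, Matrix.mul_apply]
  have hinl : ∀ (v : box n M) (F : Idx n → Idx n → ℂ),
      (Wᴴ * sec F M' * W) (Sum.inl v) (Sum.inl v) = (Vᴴ * sec F M * V) v v := by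
    intro v F
    rw [hentry, Matrix.mul_assoc, Matrix.mul_apply]
    simp only [conjTranspose_apply, Matrix.mul_apply, hWl, sec_apply, mul_dite, mul_zero,
      apply_dite star, star_zero, dite_mul, zero_mul]
    rw [sum_box_dite h fun k : box n M => star (V k v) *
      ∑ l : box n M', if hl : (l : Idx n) ∈ box n M then F k l * V ⟨l, hl⟩ v else 0]
    refine Finset.sum_congr rfl fun k _ => ?_
    rw [sum_box_dite h fun l : box n M => F k l * V l v]
  have hinr : ∀ (q : R) (F : Idx n → Idx n → ℂ),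
      (Wᴴ * sec F M' * W) (Sum.inr q) (Sum.inr q) = F q q := by
    intro q F
    rw [hentry]
    simp only [hWr, sec_apply]
    rw [Finset.sum_eq_single_of_mem ⟨q, (hRmem q).1⟩ (Finset.mem_univ _)]
    · rw [Finset.sum_eq_single_of_mem ⟨q, (hRmem q).1⟩ (Finset.mem_univ _)]
      · simp
      · intro l _ hl
        have : (l : Idx n) ≠ q := fun e => hl (Subtype.ext e)
        simp [this]
    · intro l _ hl
      have : (l : Idx n) ≠ q := fun e => hl (Subtype.ext e)
      simp [this]
  have hcol : ∀ j, (Wᴴ * W) j j = 1 := by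
    intro j
    have e : Wᴴ * W = Wᴴ * (1 : Matrix (box n M') (box n M') ℂ) * W := by rw [Matrix.mul_one]
    rw [e, ← sec_ite_eq_one M']
    rcases j with v | q
    · rw [hinl v, sec_ite_eq_one, Matrix.mul_one, hVV', Matrix.one_apply_eq]
    · rw [hinr q]; simp
  refine (peierls (hA M') W hcol hrow).trans (le_of_eq ?_)
  rw [Fintype.sum_sum_type, eSum_def hH, ← Finset.sum_coe_sort (box n M' \ box n M)]
  congr 1
  · refine Finset.sum_congr rfl fun v _ => ?_
    rw [hinl v A]
    have e : Vᴴ * sec A M * V = diagonal (fun i => ((hH.eigenvalues i : ℝ) : ℂ)) := by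
      conv_lhs => rw [spectral_form hH]
      rw [← hV, ← Matrix.mul_assoc, ← Matrix.mul_assoc, hVV', Matrix.one_mul, Matrix.mul_assoc,
        hVV', Matrix.mul_one]
    rw [e, Matrix.diagonal_apply_eq, Complex.ofReal_re]
  · refine Finset.sum_congr rfl fun q _ => ?_
    rw [hinr q A]

/-! ### Tails -/

/-- Gibbs weight -/
noncomputable def wgt (ε : ℝ) (k : Idx n) : ℝ := exp (-(ε * tot k) - 1)

lemma wgt_pos (ε : ℝ) (k : Idx n) : 0 < wgt ε k := exp_pos _

lemma summable_wgt {ε : ℝ} (hε : 0 < ε) : Summable (wgt (n := n) ε) := by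
  set r := exp (-ε) with hr
  have hr0 : 0 ≤ r := (exp_pos _).le
  have hr1 : r < 1 := exp_lt_one_iff.2 (by linarith)
  refine summable_of_sum_le (fun k => (wgt_pos ε k).le) (c := ((1 - r)⁻¹) ^ n) fun F => ?_
  have hle : ∀ k : Idx n, wgt ε k ≤ ∏ i, r ^ k i := by
    intro k
    rw [Finset.prod_pow_eq_pow_sum, hr, ← exp_nat_mul]
    apply exp_le_exp.2
    simp only [tot]
    linarith
  set N := F.sup fun k => tot k with hN
  have hsub : F ⊆ Fintype.piFinset fun _ : Fin n => Finset.range (N + 1) := by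
    intro k hk
    rw [Fintype.mem_piFinset]
    intro i
    have h1 : k i ≤ tot k := Finset.single_le_sum (fun j _ => Nat.zero_le (k j)) (Finset.mem_univ i)
    have h2 : tot k ≤ N := Finset.le_sup (f := fun k => tot k) hk
    rw [Finset.mem_range]; omega
  calc ∑ k ∈ F, wgt ε k ≤ ∑ k ∈ F, ∏ i, r ^ k i := Finset.sum_le_sum fun k _ => hle k
    _ ≤ ∑ k ∈ Fintype.piFinset (fun _ : Fin n => Finset.range (N + 1)), ∏ i, r ^ k i :=
        Finset.sum_le_sum_of_subset_of_nonneg hsub fun k _ _ =>
          Finset.prod_nonneg fun i _ => pow_nonneg hr0 _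
    _ = (∑ j ∈ Finset.range (N + 1), r ^ j) ^ n := by
        rw [← Finset.prod_univ_sum]; simp
    _ ≤ _ := by
        refine pow_le_pow_left₀ (Finset.sum_nonneg fun j _ => pow_nonneg hr0 _) ?_ n
        rw [← tsum_geometric_of_lt_one hr0 hr1]
        exact (summable_geometric_of_lt_one hr0 hr1).sum_le_tsum _ fun j _ => pow_nonneg hr0 _

lemma negMulLog_le_affine {x c : ℝ} (hx : 0 ≤ x) : negMulLog x ≤ c * x + exp (-c - 1) := by
  rcases hx.lt_or_eq with h | h
  · have h1 := log_le_sub_one_of_pos (div_pos (exp_pos (-c - 1)) h)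
    rw [log_div (exp_pos _).ne' h.ne', log_exp] at h1
    have h2 := mul_le_mul_of_nonneg_left h1 hx
    rw [mul_sub x (exp (-c - 1) / x), mul_div_cancel₀ _ h.ne'] at h2
    rw [negMulLog]
    linarith
  · rw [← h]; simp [(exp_pos _).le]

/-- the uniform tail -/
noncomputable def tail (n : ℕ) (E ε : ℝ) (M : ℕ) : ℝ :=
  ε * E + ((∑' k : Idx n, wgt ε k) - ∑ k ∈ box n M, wgt ε k)

lemma exists_tail_le (n : ℕ) (E : ℝ) (hE : 0 ≤ E) {δ : ℝ} (hδ : 0 < δ) :
    ∃ ε > 0, ∀ᶠ M in atTop, tail n E ε M ≤ δ := by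
  refine ⟨δ / (2 * (E + 1)), by positivity, ?_⟩
  have hε : 0 < δ / (2 * (E + 1)) := by positivity
  have h1 : δ / (2 * (E + 1)) * E ≤ δ / 2 := by
    rw [div_mul_eq_mul_div, div_le_div_iff₀ (by positivity) two_pos]
    linarith [mul_nonneg hδ.le hE]
  have h2 := (summable_wgt (n := n) hε).hasSum.comp (tendsto_box (n := n))
  filter_upwards [h2 (Ioi_mem_nhds (show (∑' k : Idx n, wgt (δ / (2 * (E + 1))) k) - δ / 2
    < ∑' k : Idx n, wgt (δ / (2 * (E + 1))) k by linarith))] with M hM
  simp only [Set.mem_preimage, Set.mem_Ioi, Function.comp_apply] at hM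
  rw [tail]
  linarith

variable {A : Idx n → Idx n → ℂ} {E : ℝ}

lemma IsSubState.energy_nonneg (h : IsSubState A E) : 0 ≤ E := by simpa using h.energy ∅

lemma IsSubState.sum_negMulLog_le (h : IsSubState A E) {ε : ℝ} (hε : 0 < ε) (F : Finset (Idx n)) :
    ∑ k ∈ F, negMulLog (A k k).re ≤ ε * E + ∑ k ∈ F, wgt ε k := by
  calc ∑ k ∈ F, negMulLog (A k k).re
      ≤ ∑ k ∈ F, ((ε * tot k) * (A k k).re + wgt ε k) :=
        Finset.sum_le_sum fun k _ => negMulLog_le_affine (h.psd.diag_nonneg k)
    _ = ε * ∑ k ∈ F, (tot k : ℝ) * (A k k).re + ∑ k ∈ F, wgt ε k := by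
        rw [Finset.sum_add_distrib, Finset.mul_sum]
        congr 1
        exact Finset.sum_congr rfl fun k _ => by ring
    _ ≤ _ := by linarith [mul_le_mul_of_nonneg_left (h.energy F) hε.le]

lemma IsSubState.eSum_sec_le (h : IsSubState A E) {ε : ℝ} (hε : 0 < ε) {M M' : ℕ} (hM : M ≤ M') :
    eSum (sec A M') ≤ eSum (sec A M) + tail n E ε M := by
  have h1 := eSum_sec_split h.psd hM
  have h2 := h.sum_negMulLog_le hε (box n M' \ box n M)
  have h3 : ∑ k ∈ box n M' \ box n M, wgt ε k + ∑ k ∈ box n M, wgt ε k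
      ≤ ∑' k : Idx n, wgt ε k := by
    rw [Finset.sum_sdiff (box_mono hM)]
    exact (summable_wgt hε).sum_le_tsum _ fun k _ => (wgt_pos ε k).le
  rw [tail]
  linarith

lemma IsSubState.eSum_sec_bdd (h : IsSubState A E) (M : ℕ) :
    eSum (sec A M) ≤ E + ∑' k : Idx n, wgt 1 k := by
  have h1 := eSum_le_diag (h.psd M)
  have h2 := h.sum_negMulLog_le one_pos (box n M)
  rw [← Finset.sum_coe_sort (box n M) fun k => negMulLog (A k k).re] at h2
  have h3 : ∑ k ∈ box n M, wgt 1 k ≤ ∑' k : Idx n, wgt 1 k :=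
    (summable_wgt one_pos).sum_le_tsum _ fun k _ => (wgt_pos 1 k).le
  simp only [sec] at h1 ⊢
  linarith

lemma IsSubState.eSum_sec_nonneg (h : IsSubState A E) (M : ℕ) : 0 ≤ eSum (sec A M) := by
  refine eSum_nonneg (h.psd M) ?_
  have := h.mass (box n M)
  rw [← Finset.sum_coe_sort] at this
  simpa [Matrix.trace, sec] using this

lemma IsSubState.tendsto_Ent (h : IsSubState A E) :
    Tendsto (fun M => eSum (sec A M)) atTop (𝓝 (Ent A)) := by
  set u := fun M => eSum (sec A M) with hu
  have hb1 : IsBoundedUnder (· ≥ ·) atTop u :=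
    ⟨0, eventually_map.2 (Eventually.of_forall h.eSum_sec_nonneg)⟩
  have hb2 : IsBoundedUnder (· ≤ ·) atTop u :=
    ⟨_, eventually_map.2 (Eventually.of_forall h.eSum_sec_bdd)⟩
  refine tendsto_of_liminf_eq_limsup rfl ?_ hb2 hb1
  refine le_antisymm ?_ (liminf_le_limsup hb2 hb1)
  refine le_of_forall_pos_le_add fun δ hδ => ?_
  obtain ⟨ε, hε, hev⟩ := exists_tail_le n E h.energy_nonneg (half_pos hδ)
  have hkey : limsup u atTop - δ / 2 ≤ liminf u atTop := by
    refine le_liminf_of_le hb2.isCoboundedUnder_ge ?_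
    filter_upwards [hev] with M hM
    have : limsup u atTop ≤ u M + δ / 2 := by
      refine limsup_le_of_le hb1.isCoboundedUnder_le ?_
      filter_upwards [eventually_ge_atTop M] with M' hM'
      exact (h.eSum_sec_le hε hM').trans (by linarith)
    linarith
  change limsup u atTop ≤ liminf u atTop + δ
  linarith

/-- Upper semicontinuity of the entropy of a section. -/
lemma eventually_eSum_sec_le {Ak : ℕ → Idx n → Idx n → ℂ} (hk : ∀ j, IsPsd (Ak j)) (hA : IsPsd A)
    (hlim : ∀ k l, Tendsto (fun j => Ak j k l) atTop (𝓝 (A k l))) (M : ℕ) {δ : ℝ} (hδ : 0 < δ) :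
    ∀ᶠ j in atTop, eSum (sec (Ak j) M) ≤ eSum (sec A M) + δ := by
  have hH := (hA M).isHermitian
  set V : Matrix (box n M) (box n M) ℂ := (hH.eigenvectorUnitary : Matrix (box n M) (box n M) ℂ)
    with hV
  have hVV : V * Vᴴ = 1 := Unitary.coe_mul_star_self hH.eigenvectorUnitary
  have hVV' : Vᴴ * V = 1 := mul_eq_one_comm.1 hVV
  set f : Matrix (box n M) (box n M) ℂ → ℝ := fun X => ∑ v, negMulLog ((Vᴴ * X * V) v v).re with hf
  have hfA : f (sec A M) = eSum (sec A M) := by
    have e : Vᴴ * sec A M * V = diagonal (fun i => ((hH.eigenvalues i : ℝ) : ℂ)) := by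
      conv_lhs => rw [spectral_form hH]
      rw [← hV, ← Matrix.mul_assoc, ← Matrix.mul_assoc, hVV', Matrix.one_mul, Matrix.mul_assoc,
        hVV', Matrix.mul_one]
    rw [hf, eSum_def hH]
    simp [e]
  have hfc : Continuous f := by
    refine continuous_finsetSum _ fun v _ => continuous_negMulLog.comp (Complex.continuous_re.comp ?_)
    exact (continuous_apply_apply v v).comp
      ((continuous_const.matrix_mul continuous_id).matrix_mul continuous_const)
  have ht : Tendsto (fun j => sec (Ak j) M) atTop (𝓝 (sec A M)) :=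
    tendsto_pi_nhds.2 fun k => tendsto_pi_nhds.2 fun l => hlim k l
  have := (hfc.tendsto _).comp ht
  filter_upwards [this (Iio_mem_nhds (lt_add_of_pos_right (f (sec A M)) hδ))] with j hj
  simp only [Set.mem_preimage, Set.mem_Iio, Function.comp_apply] at hj
  rw [hfA] at hj
  exact ((peierls (hk j M) V (fun i => by rw [hVV', Matrix.one_apply_eq]) hVV).trans hj.le)

/-- Passing a finite-section inequality to the limit. -/
theorem le_Ent_of_approx {Ak : ℕ → Idx n → Idx n → ℂ} (hk : ∀ j, IsSubState (Ak j) E)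
    (hA : IsSubState A E) (hlim : ∀ k l, Tendsto (fun j => Ak j k l) atTop (𝓝 (A k l)))
    {x : ℝ} {y : ℕ → ℝ} (hy : Tendsto y atTop (𝓝 x))
    (hle : ∀ᶠ j in atTop, y j ≤ eSum (sec (Ak j) j)) : x ≤ Ent A := by
  refine le_of_forall_pos_le_add fun δ hδ => ?_
  obtain ⟨ε, hε, hev⟩ := exists_tail_le n E hA.energy_nonneg (by linarith : (0:ℝ) < δ / 2)
  refine le_of_tendsto_of_tendsto tendsto_const_nhds (hA.tendsto_Ent.add_const δ) ?_
  filter_upwards [hev] with M hM
  refine le_of_tendsto hy ?_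
  filter_upwards [hle, eventually_ge_atTop M,
    eventually_eSum_sec_le (fun j => (hk j).psd) hA.psd hlim M (by linarith : (0:ℝ) < δ / 2)]
    with j h1 h2 h3
  have := (hk j).eSum_sec_le hε h2
  linarith

end Vale.Agent.P369.Extend
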