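import Vale.Agent.P369.Extend.Channel

/-!
The Kraus series is the beam splitter with vacuum second input: `psi η k m` is the coefficient of
`|k⟩|m⟩` in `U (|k + m⟩|0⟩)`, determined by `psi η 0 0 = 1` and
`U a† U† = √η a† - √(1-η) b†`.
-/

namespace Vale.Agent.P369.Extend

open Matrix Real Filter Topology

variable {n : ℕ} {η : ℝ}

/-- coefficient of `|k⟩|m⟩` in the image of `|k + m⟩|0⟩` -/
noncomputable def psi (η : ℝ) (k m : Idx n) : ℝ := (-1) ^ tot m * amp η k m

lemma psi_vacuum : psi η (0 : Idx n) 0 = 1 := by simp [psi, amp, prob, tot]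

lemma loss_eq_psi (ρ : Idx n → Idx n → ℂ) (k l : Idx n) :
    loss η ρ k l = ∑' m : Idx n, (psi η k m : ℂ) * (psi η l m : ℂ) * ρ (k + m) (l + m) := by
  refine tsum_congr fun m => ?_
  have h : ((-1 : ℂ) ^ tot m) * (-1) ^ tot m = 1 := by
    rw [← mul_pow]; simp
  simp only [psi, Complex.ofReal_mul, Complex.ofReal_pow, Complex.ofReal_neg, Complex.ofReal_one]
  linear_combination (-((amp η k m : ℂ) * (amp η l m : ℂ) * ρ (k + m) (l + m))) * h

lemma sq_psi_sum (h0 : 0 ≤ η) (h1 : η ≤ 1) (r : Idx n) :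
    ∑ k ∈ Fintype.piFinset (fun i => Finset.range (r i + 1)), psi η k (r - k) ^ 2 = 1 := by
  rw [← sum_prob_eq_one (η := η) r]
  refine Finset.sum_congr rfl fun k _ => ?_
  rw [psi, mul_pow, ← pow_mul, pow_mul', neg_one_sq, one_pow, one_mul, sq, amp_mul_self h0 h1]

/-- one coordinate of `prob` -/
noncomputable def prob1 (η : ℝ) (a b : ℕ) : ℝ := (((a + b).choose a : ℕ) : ℝ) * η ^ a * (1 - η) ^ b

lemma prob_split (k m : Idx n) (j : Fin n) :
    prob η k m = prob1 η (k j) (m j) *
      ∏ i ∈ Finset.univ.erase j, prob1 η (k i) (m i) :=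
  (Finset.mul_prod_erase _ (fun i => prob1 η (k i) (m i)) (Finset.mem_univ j)).symm

lemma prob_sub_left (k m : Idx n) (j : Fin n) :
    (k j : ℝ) * prob η k m =
      η * ((k j + m j : ℕ) : ℝ) * prob η (k - Pi.single j 1) m * if k j = 0 then 0 else 1 := by
  split
  · next h => simp [h]
  · next h =>
    obtain ⟨a, ha⟩ := Nat.exists_eq_succ_of_ne_zero h
    have hrest : ∀ i ∈ Finset.univ.erase j, (k - Pi.single j 1 : Idx n) i = k i := fun i hi => by
      simp [Finset.ne_of_mem_erase hi]
    have hprod : ∏ i ∈ Finset.univ.erase j, prob1 η ((k - Pi.single j 1 : Idx n) i) (m i) =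
        ∏ i ∈ Finset.univ.erase j, prob1 η (k i) (m i) :=
      Finset.prod_congr rfl fun i hi => by rw [hrest i hi]
    rw [mul_one, prob_split k m j, prob_split (k - Pi.single j 1) m j, hprod]
    have hj : (k - Pi.single j 1 : Idx n) j = a := by simp [ha]
    rw [hj, ha, prob1, prob1]
    have hc : (a + 1 : ℝ) * (((a + 1 + m j).choose (a + 1) : ℕ) : ℝ) =
        ((a + 1 + m j : ℕ) : ℝ) * (((a + m j).choose a : ℕ) : ℝ) := by
      have h2 := Nat.add_one_mul_choose_eq (a + m j) a
      rw [show a + 1 + m j = a + m j + 1 by omega]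
      have h3 : ((a + m j + 1) * (a + m j).choose a : ℕ) = ((a + m j + 1).choose (a + 1) * (a + 1) : ℕ) := h2
      have h4 := congrArg (Nat.cast : ℕ → ℝ) h3
      push_cast at h4 ⊢
      linarith
    simp only [Nat.succ_eq_add_one, pow_succ]
    push_cast at hc ⊢
    linear_combination (η ^ a * η * (1 - η) ^ m j *
      ∏ i ∈ Finset.univ.erase j, prob1 η (k i) (m i)) * hc

lemma prob_swap (k m : Idx n) : prob η k m = prob (1 - η) m k := by
  refine Finset.prod_congr rfl fun i _ => ?_
  rw [sub_sub_cancel, add_comm (m i) (k i), Nat.choose_symm_add]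
  ring

lemma prob_sub_right (k m : Idx n) (j : Fin n) :
    (m j : ℝ) * prob η k m =
      (1 - η) * ((k j + m j : ℕ) : ℝ) * prob η k (m - Pi.single j 1) * if m j = 0 then 0 else 1 := by
  rw [prob_swap k m, prob_swap k (m - Pi.single j 1), prob_sub_left, add_comm (m j) (k j)]

/-- The recursion `U a† = (√η a† - √(1-η) b†) U` on Fock vectors. -/
theorem psi_rec (h0 : 0 ≤ η) (h1 : η ≤ 1) (k m : Idx n) (j : Fin n) :
    √((k j + m j : ℕ) : ℝ) * psi η k m =
      √η * √(k j : ℝ) * psi η (k - Pi.single j 1) m -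
        √(1 - η) * √(m j : ℝ) * psi η k (m - Pi.single j 1) := by
  set N := ((k j + m j : ℕ) : ℝ) with hN
  rcases Nat.eq_zero_or_pos (k j + m j) with hz | hp
  · have hk : k j = 0 := by omega
    have hm : m j = 0 := by omega
    simp [hN, hk, hm]
  have hNpos : 0 < N := Nat.cast_pos.2 hp
  have hA : √η * √(k j : ℝ) * amp η (k - Pi.single j 1) m * √N = (k j : ℝ) * amp η k m := by
    rcases Nat.eq_zero_or_pos (k j) with hk | hk
    · simp [hk]
    · have e := prob_sub_left (η := η) k m j
      rw [if_neg hk.ne', mul_one, ← hN] at e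
      rw [amp, amp, ← Real.sqrt_mul h0, ← Real.sqrt_mul (mul_nonneg h0 (Nat.cast_nonneg _)),
        ← Real.sqrt_mul (mul_nonneg (mul_nonneg h0 (Nat.cast_nonneg _))
          (prob_nonneg h0 h1 _ _))]
      rw [show η * (k j : ℝ) * prob η (k - Pi.single j 1) m * N = (k j : ℝ) ^ 2 * prob η k m by
        linear_combination (-(k j : ℝ)) * e]
      rw [Real.sqrt_mul (sq_nonneg _), Real.sqrt_sq (Nat.cast_nonneg _)]
  have hB : √(1 - η) * √(m j : ℝ) * psi η k (m - Pi.single j 1) * √N =
      -((m j : ℝ) * psi η k m) := by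
    rcases Nat.eq_zero_or_pos (m j) with hm | hm
    · simp [hm]
    · have e := prob_sub_right (η := η) k m j
      rw [if_neg hm.ne', mul_one, ← hN] at e
      have ht : tot m = tot (m - Pi.single j 1) + 1 := by
        have hsum : m = (m - Pi.single j 1) + Pi.single j 1 := by
          funext i
          rcases eq_or_ne i j with rfl | hi
          · simp only [Pi.add_apply, Pi.sub_apply, Pi.single_eq_same]; omega
          · simp [hi]
        conv_lhs => rw [hsum]
        simp [tot, Finset.sum_add_distrib]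
      have hB' : √(1 - η) * √(m j : ℝ) * amp η k (m - Pi.single j 1) * √N =
          (m j : ℝ) * amp η k m := by
        have h2 : 0 ≤ 1 - η := sub_nonneg.2 h1
        rw [amp, amp, ← Real.sqrt_mul h2, ← Real.sqrt_mul (mul_nonneg h2 (Nat.cast_nonneg _)),
          ← Real.sqrt_mul (mul_nonneg (mul_nonneg h2 (Nat.cast_nonneg _)) (prob_nonneg h0 h1 _ _))]
        rw [show (1 - η) * (m j : ℝ) * prob η k (m - Pi.single j 1) * N =
          (m j : ℝ) ^ 2 * prob η k m by linear_combination (-(m j : ℝ)) * e]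
        rw [Real.sqrt_mul (sq_nonneg _), Real.sqrt_sq (Nat.cast_nonneg _)]
      rw [psi, psi, ht, pow_succ]
      linear_combination ((-1 : ℝ) ^ tot (m - Pi.single j 1)) * hB'
  have hsq : √N * √N = N := Real.mul_self_sqrt hNpos.le
  refine mul_right_cancel₀ (Real.sqrt_pos.2 hNpos).ne' ?_
  have hA' : √η * √(k j : ℝ) * psi η (k - Pi.single j 1) m * √N = (k j : ℝ) * psi η k m := by
    rw [psi, psi]; linear_combination ((-1 : ℝ) ^ tot m) * hA
  have hNcast : N = (k j : ℝ) + (m j : ℝ) := by rw [hN]; push_cast; ring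
  linear_combination (psi η k m) * hsq - hA' + hB + (psi η k m) * hNcast

end Vale.Agent.P369.Extend
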