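import Vale.Agent.P369.Extend.Basic

/-!
The pure-loss channel (beam splitter with vacuum in the second input) as a Kraus series on infinite
matrices.
-/

namespace Vale.Agent.P369.Extend

open Matrix Real Filter Topology
open scoped ComplexOrder Matrix

variable {n : ℕ} {η : ℝ}

/-- probability that `k` of the `k + m` photons are transmitted -/
noncomputable def prob (η : ℝ) (k m : Idx n) : ℝ :=
  ∏ i, (((k i + m i).choose (k i) : ℕ) : ℝ) * η ^ k i * (1 - η) ^ m i

/-- amplitude of `|k + m⟩ ↦ |k⟩|m⟩` -/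
noncomputable def amp (η : ℝ) (k m : Idx n) : ℝ := √(prob η k m)

/-- the pure-loss channel -/
noncomputable def loss (η : ℝ) (ρ : Idx n → Idx n → ℂ) (k l : Idx n) : ℂ :=
  ∑' m : Idx n, (amp η k m : ℂ) * (amp η l m : ℂ) * ρ (k + m) (l + m)

lemma prob_nonneg (h0 : 0 ≤ η) (h1 : η ≤ 1) (k m : Idx n) : 0 ≤ prob η k m :=
  Finset.prod_nonneg fun i _ =>
    mul_nonneg (mul_nonneg (Nat.cast_nonneg _) (pow_nonneg h0 _)) (pow_nonneg (sub_nonneg.2 h1) _)

lemma sum_prob_eq_one (r : Idx n) :
    ∑ k ∈ Fintype.piFinset (fun i => Finset.range (r i + 1)), prob η k (r - k) = 1 := by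
  have e : ∀ k ∈ Fintype.piFinset (fun i => Finset.range (r i + 1)), prob η k (r - k) =
      ∏ i, η ^ k i * (1 - η) ^ (r i - k i) * (((r i).choose (k i) : ℕ) : ℝ) := by
    intro k hk
    rw [Fintype.mem_piFinset] at hk
    refine Finset.prod_congr rfl fun i _ => ?_
    have h := Finset.mem_range.1 (hk i)
    rw [Pi.sub_apply, Nat.add_sub_cancel' (by omega)]
    ring
  rw [Finset.sum_congr rfl e, ← Finset.prod_univ_sum (fun i => Finset.range (r i + 1))
    (fun i j => η ^ j * (1 - η) ^ (r i - j) * (((r i).choose j : ℕ) : ℝ))]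
  refine Finset.prod_eq_one fun i _ => ?_
  rw [← add_pow η (1 - η) (r i)]
  simp

lemma prob_le_one (h0 : 0 ≤ η) (h1 : η ≤ 1) (k m : Idx n) : prob η k m ≤ 1 := by
  refine le_trans ?_ (sum_prob_eq_one (η := η) (k + m)).le
  have h := Finset.single_le_sum (f := fun j => prob η j (k + m - j))
    (fun j _ => prob_nonneg h0 h1 j _)
    (show k ∈ Fintype.piFinset (fun i => Finset.range ((k + m) i + 1)) by
      rw [Fintype.mem_piFinset]
      intro i
      simp only [Finset.mem_range, Pi.add_apply]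
      omega)
  simpa using h

lemma amp_nonneg (k m : Idx n) : 0 ≤ amp η k m := Real.sqrt_nonneg _

lemma amp_le_one (h0 : 0 ≤ η) (h1 : η ≤ 1) (k m : Idx n) : amp η k m ≤ 1 := by
  rw [amp, Real.sqrt_le_one]
  exact prob_le_one h0 h1 k m

lemma amp_mul_self (h0 : 0 ≤ η) (h1 : η ≤ 1) (k m : Idx n) :
    amp η k m * amp η k m = prob η k m := Real.mul_self_sqrt (prob_nonneg h0 h1 k m)

variable {ρ : Idx n → Idx n → ℂ} {E : ℝ}

lemma IsPsd.norm_le (h : IsPsd ρ) (a b : Idx n) : ‖ρ a b‖ ≤ ((ρ a a).re + (ρ b b).re) / 2 := by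
  have hps := (h (max (tot a) (tot b))).submatrix
    ![(⟨a, mem_box.2 (le_max_left _ _)⟩ : box n (max (tot a) (tot b))),
      ⟨b, mem_box.2 (le_max_right _ _)⟩]
  have hd := hps.det_nonneg
  have hab := hps.isHermitian.apply 1 0
  rw [Matrix.det_fin_two] at hd
  simp [sec_apply] at hd hab
  have ha := h.diag_nonneg a
  have hb := h.diag_nonneg b
  have h3 : ‖ρ a b‖ ^ 2 ≤ (ρ a a).re * (ρ b b).re := by
    rw [Complex.sq_norm, Complex.normSq_apply]
    have h4 := (Complex.le_def.1 hd).1
    have hia : (ρ a a).im = 0 := (Complex.le_def.1 ((h (tot a)).diag_nonneg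
      (i := (⟨a, mem_box.2 le_rfl⟩ : box n (tot a))))).2.symm
    have hab1 := congrArg Complex.re hab
    have hab2 := congrArg Complex.im hab
    simp [Complex.mul_re, hia] at h4 hab1 hab2
    rw [← hab1, ← hab2] at h4
    linarith
  have h5 : 0 ≤ ((ρ a a).re + (ρ b b).re) / 2 := by positivity
  refine (abs_le_of_sq_le_sq' ?_ h5).2
  nlinarith [sq_nonneg ((ρ a a).re - (ρ b b).re)]

lemma IsSubState.summable_diag (h : IsSubState ρ E) : Summable fun a => (ρ a a).re :=
  summable_of_sum_le (fun a => h.psd.diag_nonneg a) h.mass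

lemma IsSubState.summable_norm_shift (h : IsSubState ρ E) (k l : Idx n) :
    Summable fun m => ‖ρ (k + m) (l + m)‖ :=
  Summable.of_nonneg_of_le (fun m => norm_nonneg _) (fun m => h.psd.norm_le _ _)
    (((h.summable_diag.comp_injective (add_right_injective k)).add
      (h.summable_diag.comp_injective (add_right_injective l))).div_const 2)

lemma norm_lossTerm_le (h0 : 0 ≤ η) (h1 : η ≤ 1) (ρ : Idx n → Idx n → ℂ) (k l m : Idx n) :
    ‖(amp η k m : ℂ) * (amp η l m : ℂ) * ρ (k + m) (l + m)‖ ≤ ‖ρ (k + m) (l + m)‖ := by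
  rw [norm_mul, norm_mul, Complex.norm_real, Complex.norm_real,
    Real.norm_of_nonneg (amp_nonneg k m), Real.norm_of_nonneg (amp_nonneg l m)]
  refine mul_le_of_le_one_left (norm_nonneg _) ?_
  exact mul_le_one₀ (amp_le_one h0 h1 k m) (amp_nonneg l m) (amp_le_one h0 h1 l m)

lemma IsSubState.summable_loss (h : IsSubState ρ E) (h0 : 0 ≤ η) (h1 : η ≤ 1) (k l : Idx n) :
    Summable fun m => (amp η k m : ℂ) * (amp η l m : ℂ) * ρ (k + m) (l + m) :=
  Summable.of_norm_bounded (h.summable_norm_shift k l) fun m => norm_lossTerm_le h0 h1 ρ k l m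

lemma IsSubState.loss_psd (h : IsSubState ρ E) (h0 : 0 ≤ η) (h1 : η ≤ 1) : IsPsd (loss η ρ) := by
  intro M
  have hterm : ∀ m : Idx n, (Matrix.of fun k l : box n M =>
      (amp η (k : Idx n) m : ℂ) * (amp η (l : Idx n) m : ℂ) * ρ (k + m) (l + m)).PosSemidef := by
    intro m
    have hs := (h.psd (M + tot m)).submatrix fun k : box n M =>
      (⟨(k : Idx n) + m, mem_box.2 (by
        have := mem_box.1 k.2
        simp only [tot, Pi.add_apply, Finset.sum_add_distrib] at this ⊢
        omega)⟩ : box n (M + tot m))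
    have h2 := hs.mul_mul_conjTranspose_same
      (diagonal fun k : box n M => (amp η (k : Idx n) m : ℂ))
    convert h2 using 1
    ext k l
    simp [diagonal_conjTranspose, diagonal_mul, mul_diagonal, sec_apply]
    ring
  have hl : Tendsto (fun S : Finset (Idx n) => ∑ m ∈ S, Matrix.of fun k l : box n M =>
      (amp η (k : Idx n) m : ℂ) * (amp η (l : Idx n) m : ℂ) * ρ (k + m) (l + m))
      atTop (𝓝 (sec (loss η ρ) M)) := by
    refine tendsto_pi_nhds.2 fun k => tendsto_pi_nhds.2 fun l => ?_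
    simp only [Matrix.sum_apply, Matrix.of_apply, sec_apply]
    exact (h.summable_loss h0 h1 k l).hasSum
  rw [Matrix.posSemidef_iff_dotProduct_mulVec]
  refine ⟨?_, fun x => ?_⟩
  · refine tendsto_nhds_unique ((continuous_id.matrix_conjTranspose.tendsto _).comp hl)
      (hl.congr fun S => ?_)
    exact (Matrix.posSemidef_sum S fun m _ => hterm m).isHermitian.symm
  · refine ge_of_tendsto' (((continuous_const.dotProduct
      (continuous_id.matrix_mulVec continuous_const)).tendsto _).comp hl) fun S => ?_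
    exact (Matrix.posSemidef_sum S fun m _ => hterm m).dotProduct_mulVec_nonneg x

lemma loss_diag_re (h : IsSubState ρ E) (h0 : 0 ≤ η) (h1 : η ≤ 1) (k : Idx n) :
    HasSum (fun m => prob η k m * (ρ (k + m) (k + m)).re) (loss η ρ k k).re := by
  have h2 := Complex.hasSum_re (h.summable_loss h0 h1 k k).hasSum
  refine h2.congr_fun fun m => ?_
  rw [← Complex.ofReal_mul, amp_mul_self h0 h1, Complex.re_ofReal_mul]

lemma IsSubState.sum_loss_diag_le (h : IsSubState ρ E) (h0 : 0 ≤ η) (h1 : η ≤ 1)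
    {w : Idx n → ℝ} (hw : ∀ a, 0 ≤ w a) (hwm : ∀ k m, w k ≤ w (k + m)) {C : ℝ}
    (hC : ∀ F : Finset (Idx n), ∑ a ∈ F, w a * (ρ a a).re ≤ C) (F : Finset (Idx n)) :
    ∑ k ∈ F, w k * (loss η ρ k k).re ≤ C := by
  classical
  have hs := hasSum_sum fun k (_ : k ∈ F) => (loss_diag_re h h0 h1 k).mul_left (w k)
  refine le_of_tendsto hs (Eventually.of_forall fun G => ?_)
  rw [Finset.sum_comm, ← Finset.sum_product']
  set R := (F ×ˢ G).image fun p => p.1 + p.2
  rw [← Finset.sum_fiberwise_of_maps_to (g := fun p : Idx n × Idx n => p.1 + p.2) (t := R)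
    fun p hp => Finset.mem_image_of_mem _ hp]
  refine le_trans (Finset.sum_le_sum fun r _ => ?_) (hC R)
  calc ∑ p ∈ (F ×ˢ G).filter (fun p => p.1 + p.2 = r),
        w p.1 * (prob η p.1 p.2 * (ρ (p.1 + p.2) (p.1 + p.2)).re)
      ≤ ∑ p ∈ (F ×ˢ G).filter (fun p => p.1 + p.2 = r),
        prob η p.1 (r - p.1) * (w r * (ρ r r).re) := Finset.sum_le_sum fun p hp => by
        obtain ⟨-, rfl⟩ := Finset.mem_filter.1 hp
        rw [add_tsub_cancel_left, mul_left_comm]
        exact mul_le_mul_of_nonneg_left (mul_le_mul_of_nonneg_right (hwm _ _)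
          (h.psd.diag_nonneg _)) (prob_nonneg h0 h1 _ _)
    _ = (∑ p ∈ (F ×ˢ G).filter (fun p => p.1 + p.2 = r), prob η p.1 (r - p.1)) *
          (w r * (ρ r r).re) := (Finset.sum_mul _ _ _).symm
    _ ≤ 1 * (w r * (ρ r r).re) := by
        refine mul_le_mul_of_nonneg_right ?_ (mul_nonneg (hw r) (h.psd.diag_nonneg r))
        rw [← sum_prob_eq_one (η := η) r]
        rw [← Finset.sum_image (f := fun k => prob η k (r - k))
          (g := fun p : Idx n × Idx n => p.1)]
        · refine Finset.sum_le_sum_of_subset_of_nonneg (fun k hk => ?_)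
            fun k _ _ => prob_nonneg h0 h1 k _
          obtain ⟨p, hp, rfl⟩ := Finset.mem_image.1 hk
          obtain ⟨-, rfl⟩ := Finset.mem_filter.1 hp
          rw [Fintype.mem_piFinset]
          intro i
          simp only [Finset.mem_range, Pi.add_apply]
          omega
        · intro p hp q hq e
          have e1 := (Finset.mem_filter.1 (Finset.mem_coe.1 hp)).2
          have e2 := (Finset.mem_filter.1 (Finset.mem_coe.1 hq)).2
          have : p.1 = q.1 := e
          rw [← e2, this] at e1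
          exact Prod.ext this (add_left_cancel e1)
    _ = _ := one_mul _

lemma IsSubState.loss (h : IsSubState ρ E) (h0 : 0 ≤ η) (h1 : η ≤ 1) :
    IsSubState (loss η ρ) E where
  psd := h.loss_psd h0 h1
  mass F := by
    simpa using h.sum_loss_diag_le h0 h1 (w := fun _ => 1) (C := 1) (fun _ => zero_le_one)
      (fun _ _ => le_rfl) (by simpa using h.mass) F
  energy F := h.sum_loss_diag_le h0 h1 (fun _ => Nat.cast_nonneg _) (fun k m => by
      refine Nat.cast_le.2 ?_
      simp only [tot, Pi.add_apply, Finset.sum_add_distrib]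
      omega) h.energy F

/-- The channel passes to entrywise limits dominated by a fixed state. -/
lemma tendsto_loss {ρk : ℕ → Idx n → Idx n → ℂ} (h : IsSubState ρ E) (h0 : 0 ≤ η) (h1 : η ≤ 1)
    {C : ℝ} (hdom : ∀ j a b, ‖ρk j a b‖ ≤ C * ‖ρ a b‖)
    (hlim : ∀ a b, Tendsto (fun j => ρk j a b) atTop (𝓝 (ρ a b))) (k l : Idx n) :
    Tendsto (fun j => Extend.loss η (ρk j) k l) atTop (𝓝 (Extend.loss η ρ k l)) := by
  refine tendsto_tsum_of_dominated_convergence ((h.summable_norm_shift k l).mul_left C)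
    (fun m => (hlim _ _).const_mul _) (Eventually.of_forall fun j m => ?_)
  exact (norm_lossTerm_le h0 h1 (ρk j) k l m).trans (hdom j _ _)

/-- The channel preserves the trace. -/
lemma IsSubState.hasSum_loss_diag (h : IsSubState ρ E) (h0 : 0 ≤ η) (h1 : η ≤ 1) {t : ℝ}
    (ht : HasSum (fun a => (ρ a a).re) t) :
    HasSum (fun k => (Extend.loss η ρ k k).re) t := by
  classical
  have hnn : ∀ k, 0 ≤ (Extend.loss η ρ k k).re := (h.loss h0 h1).psd.diag_nonneg
  have hup : ∀ F : Finset (Idx n), ∑ k ∈ F, (Extend.loss η ρ k k).re ≤ t := fun F => by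
    simpa using h.sum_loss_diag_le h0 h1 (w := fun _ => 1) (C := t) (fun _ => zero_le_one)
      (fun _ _ => le_rfl) (fun G => by
        simpa using sum_le_hasSum G (fun a _ => h.psd.diag_nonneg a) ht) F
  have hs : Summable fun k => (Extend.loss η ρ k k).re := summable_of_sum_le hnn hup
  refine (Summable.hasSum_iff hs).2 (le_antisymm (hs.tsum_le_of_sum_le hup) ?_)
  refine le_of_tendsto ht (Eventually.of_forall fun R => ?_)
  let S : Finset (Idx n × Idx n) := R.biUnion fun r =>
    (Fintype.piFinset fun i => Finset.range (r i + 1)).image fun k => (k, r - k)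
  have hdis : (↑R : Set (Idx n)).PairwiseDisjoint fun r =>
      (Fintype.piFinset fun i => Finset.range (r i + 1)).image fun k => (k, r - k) := by
    intro r _ r' _ hne
    simp only [Function.onFun, Finset.disjoint_left, Finset.mem_image, not_exists, not_and]
    rintro _ ⟨k, hk, rfl⟩ k' hk' e
    obtain ⟨rfl, e2⟩ := Prod.mk.inj e
    rw [Fintype.mem_piFinset] at hk hk'
    refine hne (funext fun i => ?_)
    have h3 := congrFun e2 i
    have h4 := Finset.mem_range.1 (hk i)
    have h5 := Finset.mem_range.1 (hk' i)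
    simp only [Pi.sub_apply] at h3
    omega
  have heq : ∑ r ∈ R, (ρ r r).re = ∑ q ∈ S, prob η q.1 q.2 * (ρ (q.1 + q.2) (q.1 + q.2)).re := by
    rw [Finset.sum_biUnion hdis]
    refine Finset.sum_congr rfl fun r _ => ?_
    rw [Finset.sum_image fun a _ b _ e => (Prod.mk.inj e).1]
    conv_lhs => rw [← one_mul (ρ r r).re, ← sum_prob_eq_one (η := η) r, Finset.sum_mul]
    refine Finset.sum_congr rfl fun k hk => ?_
    rw [Fintype.mem_piFinset] at hk
    have : k + (r - k) = r := by
      funext i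
      have := Finset.mem_range.1 (hk i)
      simp only [Pi.add_apply, Pi.sub_apply]; omega
    rw [this]
  rw [heq]
  have hsub : S ⊆ S.image Prod.fst ×ˢ S.image Prod.snd := fun q hq =>
    Finset.mem_product.2 ⟨Finset.mem_image_of_mem _ hq, Finset.mem_image_of_mem _ hq⟩
  refine le_trans (Finset.sum_le_sum_of_subset_of_nonneg hsub fun q _ _ =>
    mul_nonneg (prob_nonneg h0 h1 _ _) (h.psd.diag_nonneg _)) ?_
  rw [Finset.sum_product]
  refine le_trans (Finset.sum_le_sum fun k _ => ?_) (hs.sum_le_tsum _ fun k _ => hnn k)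
  exact sum_le_hasSum _ (fun m _ => mul_nonneg (prob_nonneg h0 h1 _ _) (h.psd.diag_nonneg _))
    (loss_diag_re h h0 h1 k)

end Vale.Agent.P369.Extend
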