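import Vale.Agent.P369.Extend.Spectral
import Vale.Agent.P369.Extend.BeamSplitter

/-!
Glue: the entropy photon-number inequality with vacuum second input, stated with eigenvalues, from
the finite-matrix inequality.
-/

namespace Vale.Agent.P369.Extend

open Matrix Real Filter Topology
open Vale.Agent.P358 (eSum)
open scoped ComplexOrder Matrix

variable {n : ℕ} {η : ℝ}

/-- If `n g(r) = S(ρ)` and `n g(s) = S(ρ_C)`, with the entropies computed from eigenvalues, then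
`η r ≤ s`, i.e. `η N(ρ) ≤ N(ρ_C)`. -/
theorem photonNumber_le_of_finite {ι κ : Type*} (hn : 1 ≤ n) (h0 : 0 ≤ η) (h1 : η ≤ 1)
    (hfin : ∀ (K : ℕ) (A : Matrix (box n K) (box n K) ℂ), A.PosSemidef → A.trace = 1 →
      ∀ r : ℝ, 0 ≤ r → n * gfun r ≤ eSum A →
        n * gfun (η * r) ≤ eSum (sec (Extend.loss η (ext A)) K))
    {ρ : Idx n → Idx n → ℂ} {E : ℝ} (h : IsSubState ρ E)
    (hm : HasSum (fun k => (ρ k k).re) 1)
    {p : ι → ℝ} {v : ι → Idx n → ℂ} (hp : IsDecomp ρ p v)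
    {q : κ → ℝ} {w : κ → Idx n → ℂ} (hq : IsDecomp (Extend.loss η ρ) q w)
    {r s : ℝ} (hr : 0 ≤ r) (hs : 0 ≤ s)
    (hSr : HasSum (fun i => negMulLog (p i)) (n * gfun r))
    (hSs : HasSum (fun i => negMulLog (q i)) (n * gfun s)) :
    η * r ≤ s := by
  have e1 : Ent ρ = n * gfun r := (hasSum_Ent hp h).unique hSr
  have e2 : Ent (Extend.loss η ρ) = n * gfun s := (hasSum_Ent hq (h.loss h0 h1)).unique hSs
  have h2 := epni_vacuum_of_finite h0 h1 hfin h hm hr e1.ge
  rw [e2] at h2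
  exact (strictMonoOn_gfun.le_iff_le (Set.mem_Ici.2 (mul_nonneg h0 hr)) (Set.mem_Ici.2 hs)).1
    (le_of_mul_le_mul_left h2 (Nat.cast_pos.2 (by omega)))

end Vale.Agent.P369.Extend
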