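import Vale.Agent.P369.Extend.Channel

/-!
An entropy inequality for the pure-loss channel on finitely supported states extends to all states of
finite mean photon number.
-/

namespace Vale.Agent.P369.Extend

open Matrix Real Filter Topology
open Vale.Agent.P358 (eSum eSum_real_smul)
open scoped ComplexOrder Matrix

variable {n : ℕ} {η : ℝ}

/-- zero extension of a matrix on a box -/
def ext {K : ℕ} (A : Matrix (box n K) (box n K) ℂ) (k l : Idx n) : ℂ :=
  if hk : k ∈ box n K then if hl : l ∈ box n K then A ⟨k, hk⟩ ⟨l, hl⟩ else 0 else 0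

lemma ext_psd {K : ℕ} {A : Matrix (box n K) (box n K) ℂ} (hA : A.PosSemidef) : IsPsd (ext A) := by
  intro M
  set X : Matrix (box n M) (box n K) ℂ := Matrix.of fun k q => if (k : Idx n) = q then 1 else 0
  convert hA.mul_mul_conjTranspose_same X using 1
  ext k l
  rw [Matrix.mul_apply]
  simp only [Matrix.mul_apply, conjTranspose_apply, X, Matrix.of_apply, sec_apply, ext,
    apply_ite star, star_one, star_zero, mul_ite, mul_one, mul_zero, ite_mul, one_mul, zero_mul]
  by_cases hl : (l : Idx n) ∈ box n K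
  · rw [Finset.sum_eq_single_of_mem (⟨l, hl⟩ : box n K) (Finset.mem_univ _)]
    · by_cases hk : (k : Idx n) ∈ box n K
      · rw [if_pos rfl, Finset.sum_eq_single_of_mem (⟨k, hk⟩ : box n K) (Finset.mem_univ _)]
        · rw [if_pos rfl, dif_pos hk, dif_pos hl]
        · intro q _ hq
          exact if_neg fun e : (k : Idx n) = q => hq (Subtype.ext e.symm)
      · rw [dif_neg hk, if_pos rfl, Finset.sum_eq_zero]
        intro q _
        exact if_neg fun e : (k : Idx n) = q => hk (e ▸ q.2)
    · intro q _ hq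
      exact if_neg fun e : (l : Idx n) = q => hq (Subtype.ext e.symm)
  · rw [Finset.sum_eq_zero]
    · split <;> simp
    · intro q _
      exact if_neg fun e : (l : Idx n) = q => hl (e ▸ q.2)

lemma tot_add (k m : Idx n) : tot (k + m) = tot k + tot m := by
  simp [tot, Finset.sum_add_distrib]

/-- On a finitely supported input the channel is a finite Kraus sum. -/
lemma loss_ext_eq_sum {K : ℕ} (A : Matrix (box n K) (box n K) ℂ) (k l : Idx n) :
    Extend.loss η (ext A) k l =
      ∑ m ∈ box n K, (amp η k m : ℂ) * (amp η l m : ℂ) * ext A (k + m) (l + m) := by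
  refine tsum_eq_sum fun m hm => ?_
  have h : k + m ∉ box n K := by
    rw [mem_box] at hm ⊢
    rw [tot_add]; omega
  simp [ext, h]

variable {ρ : Idx n → Idx n → ℂ} {E : ℝ}

lemma IsSubState.mono (h : IsSubState ρ E) {E' : ℝ} (hE : E ≤ E') : IsSubState ρ E' :=
  ⟨h.psd, h.mass, fun F => (h.energy F).trans hE⟩

lemma isSubState_zero (hE : 0 ≤ E) : IsSubState (fun _ _ : Idx n => (0 : ℂ)) E :=
  ⟨fun M => by exact PosSemidef.zero, fun F => by simp, fun F => by simpa using hE⟩

lemma IsPsd.diag_eq (h : IsPsd ρ) (k : Idx n) : ρ k k = ((ρ k k).re : ℂ) := by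
  have := (h (tot k)).diag_nonneg (i := (⟨k, mem_box.2 le_rfl⟩ : box n (tot k)))
  exact Complex.ext (by simp) (by simpa [sec_apply] using (Complex.le_def.1 this).2.symm)

lemma IsPsd.trace_sec (h : IsPsd ρ) (K : ℕ) :
    (sec ρ K).trace = ((∑ k ∈ box n K, (ρ k k).re : ℝ) : ℂ) := by
  rw [Complex.ofReal_sum, ← Finset.sum_coe_sort (box n K)]
  exact Finset.sum_congr rfl fun k _ => h.diag_eq k

/-- normalised truncation -/
noncomputable def trunc (ρ : Idx n → Idx n → ℂ) (K : ℕ) : Matrix (box n K) (box n K) ℂ :=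
  (((∑ k ∈ box n K, (ρ k k).re)⁻¹ : ℝ) : ℂ) • sec ρ K

/-- If a bound holds for all finitely supported states, it holds for all states of finite mean
photon number. -/
theorem le_Ent_loss (h0 : 0 ≤ η) (h1 : η ≤ 1) {a b : ℝ}
    (hfin : ∀ (K : ℕ) (A : Matrix (box n K) (box n K) ℂ), A.PosSemidef → A.trace = 1 →
      a ≤ eSum A → b ≤ eSum (sec (Extend.loss η (ext A)) K))
    (h : IsSubState ρ E) (hm : HasSum (fun k => (ρ k k).re) 1) (ha : a < Ent ρ) :
    b ≤ Ent (Extend.loss η ρ) := by
  have hmK : Tendsto (fun K => ∑ k ∈ box n K, (ρ k k).re) atTop (𝓝 1) := hm.comp tendsto_box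
  have hcK : Tendsto (fun K => (∑ k ∈ box n K, (ρ k k).re)⁻¹) atTop (𝓝 1) := by
    simpa using hmK.inv₀ one_ne_zero
  have hS : Tendsto (fun K => eSum (trunc ρ K)) atTop (𝓝 (Ent ρ)) := by
    have h2 := (hcK.mul h.tendsto_Ent).add (((continuous_negMulLog.tendsto _).comp hcK).mul hmK)
    simp only [negMulLog_one, zero_mul, one_mul, add_zero, Function.comp_apply] at h2
    refine h2.congr fun K => ?_
    rw [trunc, eSum_real_smul (h.psd K).isHermitian, h.psd.trace_sec K, Complex.ofReal_re]
  have hev : ∀ᶠ K in atTop, (1 / 2 : ℝ) < (∑ k ∈ box n K, (ρ k k).re) ∧ a ≤ eSum (trunc ρ K) :=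
    (hmK.eventually (eventually_gt_nhds (by norm_num : (1 / 2 : ℝ) < 1))).and
      ((hS.eventually (eventually_gt_nhds ha)).mono fun K hK => hK.le)
  obtain ⟨K₀, hK₀⟩ := eventually_atTop.1 hev
  let σ : ℕ → Idx n → Idx n → ℂ := fun j => if K₀ ≤ j then ext (trunc ρ j) else fun _ _ => 0
  have hc0 : ∀ j, K₀ ≤ j → 0 ≤ (∑ k ∈ box n j, (ρ k k).re)⁻¹ ∧
      (∑ k ∈ box n j, (ρ k k).re)⁻¹ ≤ 2 := fun j hj => by
    have := (hK₀ j hj).1
    exact ⟨inv_nonneg.2 (by linarith), by
      rw [inv_le_comm₀ (by linarith) two_pos]; linarith⟩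
  have htr : ∀ j, K₀ ≤ j → (trunc ρ j).PosSemidef ∧ (trunc ρ j).trace = 1 := fun j hj => by
    refine ⟨(h.psd j).smul (Complex.zero_le_real.2 (hc0 j hj).1), ?_⟩
    rw [trunc, trace_smul, h.psd.trace_sec j, smul_eq_mul, ← Complex.ofReal_mul,
      inv_mul_cancel₀ (by linarith [(hK₀ j hj).1]), Complex.ofReal_one]
  have hval : ∀ j (k : Idx n), K₀ ≤ j → (σ j k k).re =
      if k ∈ box n j then (∑ k ∈ box n j, (ρ k k).re)⁻¹ * (ρ k k).re else 0 := by
    intro j k hj
    simp only [σ, if_pos hj, ext]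
    split
    · simp only [trunc, Matrix.smul_apply, sec_apply, smul_eq_mul, Complex.re_ofReal_mul]
    · rfl
  have hE : E ≤ 2 * E := by linarith [h.energy_nonneg]
  have hσ : ∀ j, IsSubState (σ j) (2 * E) := by
    intro j
    by_cases hj : K₀ ≤ j
    · refine ⟨by simpa [σ, hj] using ext_psd (htr j hj).1, fun F => ?_, fun F => ?_⟩
      · rw [Finset.sum_congr rfl fun k _ => hval j k hj, Finset.sum_ite_mem, ← Finset.mul_sum]
        calc (∑ k ∈ box n j, (ρ k k).re)⁻¹ * ∑ k ∈ F ∩ box n j, (ρ k k).re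
            ≤ (∑ k ∈ box n j, (ρ k k).re)⁻¹ * ∑ k ∈ box n j, (ρ k k).re := by
              refine mul_le_mul_of_nonneg_left ?_ (hc0 j hj).1
              exact Finset.sum_le_sum_of_subset_of_nonneg Finset.inter_subset_right
                fun k _ _ => h.psd.diag_nonneg k
          _ = 1 := inv_mul_cancel₀ (by linarith [(hK₀ j hj).1])
      · calc ∑ k ∈ F, (tot k : ℝ) * (σ j k k).re
            ≤ ∑ k ∈ F, 2 * ((tot k : ℝ) * (ρ k k).re) := Finset.sum_le_sum fun k _ => by
              rw [hval j k hj]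
              have h2 := mul_nonneg (Nat.cast_nonneg (α := ℝ) (tot k)) (h.psd.diag_nonneg k)
              split
              · rw [mul_left_comm]
                exact mul_le_mul_of_nonneg_right (hc0 j hj).2 h2
              · simpa using h2
          _ ≤ _ := by rw [← Finset.mul_sum]; linarith [h.energy F]
    · simpa [σ, hj] using isSubState_zero (n := n) (by linarith [h.energy_nonneg] : 0 ≤ 2 * E)
  have hdom : ∀ j a b, ‖σ j a b‖ ≤ 2 * ‖ρ a b‖ := by
    intro j a b
    have h2 : (0 : ℝ) ≤ 2 * ‖ρ a b‖ := by positivity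
    by_cases hj : K₀ ≤ j
    · simp only [σ, if_pos hj, ext]
      split
      · split
        · simp only [trunc, Matrix.smul_apply, sec_apply, smul_eq_mul, norm_mul, Complex.norm_real,
            Real.norm_of_nonneg (hc0 j hj).1]
          exact mul_le_mul_of_nonneg_right (hc0 j hj).2 (norm_nonneg _)
        · simpa using h2
      · simpa using h2
    · simpa [σ, hj] using h2
  have hlim : ∀ a b, Tendsto (fun j => σ j a b) atTop (𝓝 (ρ a b)) := by
    intro a b
    have h2 := ((Complex.continuous_ofReal.tendsto _).comp hcK).mul_const (ρ a b)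
    simp only [Complex.ofReal_one, one_mul, Function.comp_apply] at h2
    refine h2.congr' ?_
    filter_upwards [eventually_ge_atTop K₀, eventually_ge_atTop (tot a),
      eventually_ge_atTop (tot b)] with j hj ha hb
    simp [σ, hj, ext, mem_box.2 ha, mem_box.2 hb, trunc, sec_apply]
  refine le_Ent_of_approx (fun j => (hσ j).loss h0 h1) ((h.loss h0 h1).mono hE)
    (tendsto_loss h h0 h1 hdom hlim) (tendsto_const_nhds (x := b)) ?_
  filter_upwards [eventually_ge_atTop K₀] with j hj
  have := hfin j (trunc ρ j) (htr j hj).1 (htr j hj).2 (hK₀ j hj).2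
  simpa [σ, hj] using this

/-- the entropy of the one-mode thermal state of mean photon number `r` -/
noncomputable def gfun (r : ℝ) : ℝ := (r + 1) * log (r + 1) - r * log r

lemma gfun_eq (r : ℝ) : gfun r = negMulLog r - negMulLog (r + 1) := by
  simp only [gfun, negMulLog]; ring

lemma continuous_gfun : Continuous gfun := by
  rw [show gfun = fun r => negMulLog r - negMulLog (r + 1) from funext gfun_eq]
  fun_prop

lemma gfun_zero : gfun 0 = 0 := by simp [gfun]

lemma strictMonoOn_gfun : StrictMonoOn gfun (Set.Ici 0) := by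
  refine strictMonoOn_of_hasDerivWithinAt_pos (convex_Ici 0) continuous_gfun.continuousOn
    (f' := fun r => log (r + 1) - log r) (fun x hx => ?_) fun x hx => ?_
  all_goals simp only [interior_Ici, Set.mem_Ioi] at hx
  · have h1 := hasDerivAt_negMulLog hx.ne'
    have h2 : HasDerivAt (fun r => negMulLog (r + 1)) (-log (x + 1) - 1) x :=
      HasDerivAt.comp_add_const x 1 (hasDerivAt_negMulLog (by linarith : x + 1 ≠ 0))
    have h3 : HasDerivAt gfun (log (x + 1) - log x) x := by
      rw [show gfun = fun r => negMulLog r - negMulLog (r + 1) from funext gfun_eq]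
      exact (h1.fun_sub h2).congr_deriv (by ring)
    exact h3.hasDerivWithinAt
  · linarith [log_lt_log hx (by linarith : x < x + 1)]

/-- The entropy photon-number inequality with vacuum second input follows from its finite case. -/
theorem epni_vacuum_of_finite (h0 : 0 ≤ η) (h1 : η ≤ 1)
    (hfin : ∀ (K : ℕ) (A : Matrix (box n K) (box n K) ℂ), A.PosSemidef → A.trace = 1 →
      ∀ r : ℝ, 0 ≤ r → n * gfun r ≤ eSum A →
        n * gfun (η * r) ≤ eSum (sec (Extend.loss η (ext A)) K))
    (h : IsSubState ρ E) (hm : HasSum (fun k => (ρ k k).re) 1) {r : ℝ} (hr : 0 ≤ r)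
    (hle : n * gfun r ≤ Ent ρ) : n * gfun (η * r) ≤ Ent (Extend.loss η ρ) := by
  have hout := h.loss h0 h1
  have hnn : 0 ≤ Ent (Extend.loss η ρ) :=
    ge_of_tendsto' hout.tendsto_Ent fun M => hout.eSum_sec_nonneg M
  rcases Nat.eq_zero_or_pos n with hn | hn
  · subst hn; simpa using hnn
  rcases hr.eq_or_lt with rfl | hr
  · simpa [gfun_zero] using hnn
  have hc : Tendsto (fun x => (n : ℝ) * gfun (η * x)) (𝓝[<] r) (𝓝 (n * gfun (η * r))) :=
    ((continuous_gfun.comp (continuous_const.mul continuous_id)).const_smul (n : ℝ)).continuousWithinAt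
  refine le_of_tendsto hc ?_
  filter_upwards [Ioo_mem_nhdsLT hr] with x hx
  refine le_Ent_loss h0 h1 (a := n * gfun x) (fun K A hA ht hS => hfin K A hA ht x hx.1.le hS) h hm ?_
  refine lt_of_lt_of_le ?_ hle
  exact mul_lt_mul_of_pos_left (strictMonoOn_gfun hx.1.le hr.le hx.2) (Nat.cast_pos.2 hn)

end Vale.Agent.P369.Extend
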