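import Vale.Agent.P369.Extend.Reduce

/-!
The section entropy limit is the von Neumann entropy: it equals the sum of `-p log p` over the
eigenvalues of any spectral decomposition.
-/

namespace Vale.Agent.P369.Extend

open Matrix Real Filter Topology
open Vale.Agent.P358 (eSum eSum_def spectral_form)
open scoped ComplexOrder Matrix

variable {n : ℕ} {ι : Type*}

/-- `ρ = ∑ p i |v i⟩⟨v i|` with `v` an orthonormal basis (unit columns, complete) -/
structure IsDecomp (ρ : Idx n → Idx n → ℂ) (p : ι → ℝ) (v : ι → Idx n → ℂ) : Prop where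
  nonneg : ∀ i, 0 ≤ p i
  entries : ∀ k l, HasSum (fun i => (p i : ℂ) * (v i k * star (v i l))) (ρ k l)
  unit : ∀ i, HasSum (fun k => Complex.normSq (v i k)) 1
  complete : ∀ k l, HasSum (fun i => v i k * star (v i l)) (if k = l then 1 else 0)

variable {ρ : Idx n → Idx n → ℂ} {E : ℝ} {p : ι → ℝ} {v : ι → Idx n → ℂ}

lemma IsDecomp.diag (hd : IsDecomp ρ p v) (k : Idx n) :
    HasSum (fun i => p i * Complex.normSq (v i k)) (ρ k k).re := by
  refine (Complex.hasSum_re (hd.entries k k)).congr_fun fun i => ?_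
  rw [Complex.star_def, Complex.mul_conj, ← Complex.ofReal_mul, Complex.ofReal_re]

lemma IsDecomp.sum_le_one (hd : IsDecomp ρ p v) (h : IsSubState ρ E) (T : Finset ι) :
    ∑ i ∈ T, p i ≤ 1 := by
  have hs := hasSum_sum fun i (_ : i ∈ T) => (hd.unit i).mul_left (p i)
  simp only [mul_one] at hs
  refine le_of_tendsto hs (Eventually.of_forall fun G => le_trans ?_ (h.mass G))
  refine Finset.sum_le_sum fun k _ => ?_
  exact sum_le_hasSum T (fun i _ => mul_nonneg (hd.nonneg i) (Complex.normSq_nonneg _)) (hd.diag k)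

lemma IsDecomp.le_one (hd : IsDecomp ρ p v) (h : IsSubState ρ E) (i : ι) : p i ≤ 1 := by
  simpa using hd.sum_le_one h {i}

lemma IsDecomp.summable (hd : IsDecomp ρ p v) (h : IsSubState ρ E) : Summable p :=
  summable_of_sum_le hd.nonneg (hd.sum_le_one h)

/-- mass of the `i`-th eigenvector inside the box -/
noncomputable def inBox (v : ι → Idx n → ℂ) (M : ℕ) (i : ι) : ℝ :=
  ∑ k ∈ box n M, Complex.normSq (v i k)

lemma jensen_sub {κ : Type*} (T : Finset κ) {w x : κ → ℝ} (hw : ∀ i ∈ T, 0 ≤ w i)
    (hsum : ∑ i ∈ T, w i ≤ 1) (hx : ∀ i ∈ T, 0 ≤ x i) {q : ℝ} (hq : 0 ≤ q) :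
    ∑ i ∈ T, w i * negMulLog (x i) + (1 - ∑ i ∈ T, w i) * negMulLog q ≤
      negMulLog (∑ i ∈ T, w i * x i + (1 - ∑ i ∈ T, w i) * q) := by
  have hnn : ∀ o ∈ Finset.insertNone T, 0 ≤ Option.elim o (1 - ∑ i ∈ T, w i) w := by
    rintro (_ | i) hi
    · simpa using sub_nonneg.2 hsum
    · exact hw i (by simpa using hi)
  have hmem : ∀ o ∈ Finset.insertNone T, Option.elim o q x ∈ Set.Ici (0 : ℝ) := by
    rintro (_ | i) hi
    · simpa using hq
    · exact hx i (by simpa using hi)
  have := concaveOn_negMulLog.le_map_sum hnn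
    (by rw [Finset.sum_insertNone]; simp) hmem
  simp only [Finset.sum_insertNone, Option.elim_none, Option.elim_some, smul_eq_mul] at this
  rw [add_comm, add_comm (∑ i ∈ T, w i * x i)]
  exact this

section Section

variable (hd : IsDecomp ρ p v) (h : IsSubState ρ E) (M : ℕ)

/-- coordinate of `v i` along the `u`-th eigenvector of the section -/
noncomputable def coord (h : IsSubState ρ E) (v : ι → Idx n → ℂ) (u : box n M) (i : ι) : ℂ :=
  ∑ k : box n M, star (((h.psd M).isHermitian.eigenvectorUnitary : Matrix (box n M) (box n M) ℂ) k u)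
    * v i k

lemma hasSum_coord {c : ι → ℂ} {X : Idx n → Idx n → ℂ}
    (hX : ∀ k l, HasSum (fun i => c i * (v i k * star (v i l))) (X k l)) (u u' : box n M) :
    HasSum (fun i => c i * (coord M h v u i * star (coord M h v u' i)))
      ((((h.psd M).isHermitian.eigenvectorUnitary : Matrix (box n M) (box n M) ℂ)ᴴ * sec X M *
        ((h.psd M).isHermitian.eigenvectorUnitary : Matrix (box n M) (box n M) ℂ)) u u') := by
  set V := ((h.psd M).isHermitian.eigenvectorUnitary : Matrix (box n M) (box n M) ℂ) with hV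
  have hs := hasSum_sum fun (l : box n M) (_ : l ∈ Finset.univ) =>
    (hasSum_sum fun (k : box n M) (_ : k ∈ Finset.univ) =>
      (hX k l).mul_left (star (V k u))).mul_right (V l u')
  rw [Matrix.mul_apply]
  simp only [Matrix.mul_apply, conjTranspose_apply, sec_apply]
  refine hs.congr_fun fun i => ?_
  simp only [coord, ← hV, star_sum, star_mul, star_star, Finset.mul_sum, Finset.sum_mul]
  refine Finset.sum_congr rfl fun l _ => Finset.sum_congr rfl fun k _ => ?_
  ring

include hd in
lemma hasSum_coord_self (u u' : box n M) :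
    HasSum (fun i => (p i : ℂ) * (coord M h v u i * star (coord M h v u' i)))
      (if u = u' then (((h.psd M).isHermitian.eigenvalues u : ℝ) : ℂ) else 0) := by
  have hs := hasSum_coord h M hd.entries u u'
  set V := ((h.psd M).isHermitian.eigenvectorUnitary : Matrix (box n M) (box n M) ℂ) with hV
  have hVV' : Vᴴ * V = 1 := mul_eq_one_comm.1 (Unitary.coe_mul_star_self _)
  have e : Vᴴ * sec ρ M * V =
      diagonal (fun i => (((h.psd M).isHermitian.eigenvalues i : ℝ) : ℂ)) := by
    conv_lhs => rw [spectral_form (h.psd M).isHermitian]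
    rw [← hV, ← Matrix.mul_assoc, ← Matrix.mul_assoc, hVV', Matrix.one_mul, Matrix.mul_assoc,
      hVV', Matrix.mul_one]
  rw [e, Matrix.diagonal_apply] at hs
  exact hs

include hd in
lemma hasSum_coord_one (u : box n M) :
    HasSum (fun i => Complex.normSq (coord M h v u i)) 1 := by
  have hX : ∀ k l, HasSum (fun i => (1 : ℂ) * (v i k * star (v i l))) (if k = l then 1 else 0) := by
    simpa using hd.complete
  have hs := hasSum_coord h M hX u u
  have hVV' : ((h.psd M).isHermitian.eigenvectorUnitary : Matrix (box n M) (box n M) ℂ)ᴴ *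
      ((h.psd M).isHermitian.eigenvectorUnitary : Matrix (box n M) (box n M) ℂ) = 1 :=
    mul_eq_one_comm.1 (Unitary.coe_mul_star_self _)
  rw [sec_ite_eq_one, Matrix.mul_one, hVV', Matrix.one_apply_eq] at hs
  have h2 := Complex.hasSum_re hs
  simp only [one_mul, Complex.star_def, Complex.mul_conj, Complex.ofReal_re, Complex.one_re] at h2
  exact h2

include hd in
lemma hasSum_coord_eig (u : box n M) :
    HasSum (fun i => p i * Complex.normSq (coord M h v u i))
      ((h.psd M).isHermitian.eigenvalues u) := by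
  have h2 := Complex.hasSum_re (hasSum_coord_self hd h M u u)
  rw [if_pos rfl, Complex.ofReal_re] at h2
  simp only [Complex.star_def, Complex.mul_conj, ← Complex.ofReal_mul, Complex.ofReal_re] at h2
  exact h2

lemma sum_coord (i : ι) : ∑ u, Complex.normSq (coord M h v u i) = inBox v M i := by
  set V := ((h.psd M).isHermitian.eigenvectorUnitary : Matrix (box n M) (box n M) ℂ) with hV
  have hVV : V * Vᴴ = 1 := Unitary.coe_mul_star_self _
  let a : box n M → ℂ := fun k => v i k
  have e1 : (fun u => coord M h v u i) = Vᴴ *ᵥ a := by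
    funext u; simp [coord, mulVec, dotProduct, hV, a]
  have e2 : star (Vᴴ *ᵥ a) ⬝ᵥ (Vᴴ *ᵥ a) = star a ⬝ᵥ a := by
    rw [star_mulVec, conjTranspose_conjTranspose, dotProduct_mulVec, vecMul_vecMul, hVV, vecMul_one]
  rw [← e1] at e2
  simp only [dotProduct, Pi.star_apply, Complex.star_def, ← Complex.normSq_eq_conj_mul_self,
    ← Complex.ofReal_sum, Complex.ofReal_inj, a] at e2
  rw [e2, inBox, ← Finset.sum_coe_sort (box n M)]

include hd h in
lemma sum_inBox_le (T : Finset ι) :
    ∑ i ∈ T, inBox v M i * negMulLog (p i) ≤ eSum (sec ρ M) := by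
  have key : ∀ u : box n M, ∑ i ∈ T, Complex.normSq (coord M h v u i) * negMulLog (p i) ≤
      negMulLog ((h.psd M).isHermitian.eigenvalues u) := by
    intro u
    set w := fun i => Complex.normSq (coord M h v u i) with hwdef
    set lam := (h.psd M).isHermitian.eigenvalues u
    have hw : ∀ i, 0 ≤ w i := fun i => Complex.normSq_nonneg _
    have h1 := hasSum_coord_one hd h M u
    have h2 := hasSum_coord_eig hd h M u
    have hS : ∑ i ∈ T, w i ≤ 1 := sum_le_hasSum T (fun i _ => hw i) h1
    have hL : ∑ i ∈ T, p i * w i ≤ lam :=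
      sum_le_hasSum T (fun i _ => mul_nonneg (hd.nonneg i) (hw i)) h2
    have hR : ∑ i ∈ T, (w i - p i * w i) ≤ 1 - lam := by
      refine sum_le_hasSum T (fun i _ => sub_nonneg.2 ?_) (h1.sub h2)
      exact mul_le_of_le_one_left (hw i) (hd.le_one h i)
    rw [Finset.sum_sub_distrib] at hR
    set S := ∑ i ∈ T, w i
    set L := ∑ i ∈ T, p i * w i
    have hq0 : 0 ≤ (lam - L) / (1 - S) := div_nonneg (by linarith) (by linarith)
    have hq1 : (lam - L) / (1 - S) ≤ 1 := div_le_one_of_le₀ (by linarith) (by linarith)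
    have hJ := jensen_sub T (fun i _ => hw i) hS (fun i _ => hd.nonneg i) hq0
    have hpt : ∑ i ∈ T, w i * p i + (1 - S) * ((lam - L) / (1 - S)) = lam := by
      have : ∑ i ∈ T, w i * p i = L := Finset.sum_congr rfl fun i _ => mul_comm _ _
      rw [this]
      rcases eq_or_ne (1 - S) 0 with hz | hz
      · rw [hz]; linarith
      · rw [mul_div_cancel₀ _ hz]; ring
    rw [hpt] at hJ
    linarith [mul_nonneg (sub_nonneg.2 hS) (negMulLog_nonneg hq0 hq1)]
  rw [eSum_def (h.psd M).isHermitian]
  refine le_trans (le_of_eq ?_) (Finset.sum_le_sum fun u _ => key u)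
  rw [Finset.sum_comm]
  exact Finset.sum_congr rfl fun i _ => by rw [← Finset.sum_mul, sum_coord]

include hd in
lemma bessel (i : ι) :
    ∑ u, p i * Complex.normSq (coord M h v u i) / (h.psd M).isHermitian.eigenvalues u ≤ 1 := by
  set lam := (h.psd M).isHermitian.eigenvalues with hlam
  have hl0 : ∀ u, 0 ≤ lam u := fun u => (h.psd M).eigenvalues_nonneg u
  set Q := ∑ u, Complex.normSq (coord M h v u i) / lam u with hQ
  have hQ0 : 0 ≤ Q := Finset.sum_nonneg fun u _ => div_nonneg (Complex.normSq_nonneg _) (hl0 u)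
  let c : box n M → ℂ := fun u => star (coord M h v u i) / (lam u : ℂ)
  have hs := hasSum_sum fun (u' : box n M) (_ : u' ∈ Finset.univ) =>
    (hasSum_sum fun (u : box n M) (_ : u ∈ Finset.univ) =>
      (hasSum_coord_self hd h M u u').mul_left (c u)).mul_right (star (c u'))
  have hval : ∑ u' : box n M, (∑ u : box n M, c u * if u = u' then (lam u : ℂ) else 0) * star (c u')
      = (Q : ℂ) := by
    rw [hQ, Complex.ofReal_sum]
    refine Finset.sum_congr rfl fun u' _ => ?_
    simp only [mul_ite, mul_zero, Finset.sum_ite_eq', Finset.mem_univ, if_true, c]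
    rcases eq_or_ne (lam u') 0 with hz | hz
    · simp [hz]
    · have : (lam u' : ℂ) ≠ 0 := Complex.ofReal_ne_zero.2 hz
      simp only [star_div₀, Complex.ofReal_div, Complex.star_def, Complex.conj_ofReal,
        Complex.normSq_eq_conj_mul_self, Complex.conj_conj]
      field_simp
  rw [← hlam] at hs
  rw [hval] at hs
  have hf : ∀ j, (fun j => ∑ u' : box n M, (∑ u : box n M,
      c u * ((p j : ℂ) * (coord M h v u j * star (coord M h v u' j)))) * star (c u')) j
      = ((p j * Complex.normSq (∑ u, c u * coord M h v u j) : ℝ) : ℂ) := by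
    intro j
    rw [Complex.ofReal_mul, ← Complex.mul_conj, ← Complex.star_def, star_sum, Finset.mul_sum,
      Finset.mul_sum]
    refine Finset.sum_congr rfl fun u' _ => ?_
    rw [Finset.sum_mul, Finset.sum_mul, Finset.mul_sum]
    refine Finset.sum_congr rfl fun u _ => ?_
    rw [star_mul']
    ring
  have h2 := Complex.hasSum_re (hs.congr_fun fun j => (hf j).symm)
  simp only [Complex.ofReal_re] at h2
  have h3 := le_hasSum h2 i fun j _ => mul_nonneg (hd.nonneg j) (Complex.normSq_nonneg _)
  have h4 : ∑ u, c u * coord M h v u i = (Q : ℂ) := by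
    rw [hQ, Complex.ofReal_sum]
    refine Finset.sum_congr rfl fun u _ => ?_
    simp only [c, Complex.ofReal_div, Complex.normSq_eq_conj_mul_self, Complex.star_def]
    ring
  rw [h4, Complex.normSq_ofReal] at h3
  have h5 : ∑ u, p i * Complex.normSq (coord M h v u i) / lam u = p i * Q := by
    rw [hQ, Finset.mul_sum]
    exact Finset.sum_congr rfl fun u _ => mul_div_assoc _ _ _
  rw [h5]
  rcases hQ0.eq_or_lt with hz | hz
  · rw [← hz, mul_zero]; exact zero_le_one
  · exact le_of_mul_le_mul_right (by rw [mul_assoc, one_mul]; exact h3) hz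

lemma negMulLog_mul_le {s q : ℝ} (hs0 : 0 ≤ s) (hs1 : s ≤ 1) (hq0 : 0 ≤ q) (hq1 : q ≤ 1) :
    negMulLog (q * s) ≤ negMulLog q + q := by
  rw [negMulLog_mul]
  have h1 : negMulLog s ≤ 1 := by
    have := negMulLog_le_affine (c := 0) hs0
    have h2 : exp (-(0 : ℝ) - 1) ≤ 1 := exp_le_one_iff.2 (by norm_num)
    linarith
  nlinarith [negMulLog_nonneg hq0 hq1, mul_le_mul_of_nonneg_left h1 hq0]

include hd in
lemma inBox_mem (i : ι) : 0 ≤ inBox v M i ∧ inBox v M i ≤ 1 :=
  ⟨Finset.sum_nonneg fun k _ => Complex.normSq_nonneg _,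
    sum_le_hasSum _ (fun k _ => Complex.normSq_nonneg _) (hd.unit i)⟩

include hd h in
lemma eSum_le_tsum (hf : Summable fun i => negMulLog (p i)) :
    eSum (sec ρ M) ≤ ∑' i, negMulLog (p i * inBox v M i) := by
  have hA : Summable fun i => negMulLog (p i * inBox v M i) := by
    refine Summable.of_nonneg_of_le (fun i => ?_) (fun i => negMulLog_mul_le (inBox_mem hd M i).1
      (inBox_mem hd M i).2 (hd.nonneg i) (hd.le_one h i)) (hf.add (hd.summable h))
    exact negMulLog_nonneg (mul_nonneg (hd.nonneg i) (inBox_mem hd M i).1)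
      (mul_le_one₀ (hd.le_one h i) (inBox_mem hd M i).1 (inBox_mem hd M i).2)
  set lam := (h.psd M).isHermitian.eigenvalues with hlam
  have hl0 : ∀ u, 0 ≤ lam u := fun u => (h.psd M).eigenvalues_nonneg u
  have hW : ∀ u, HasSum (fun i => p i * Complex.normSq (coord M h v u i) / lam u * negMulLog (lam u))
      (negMulLog (lam u)) := by
    intro u
    have h1 := ((hasSum_coord_eig hd h M u).div_const (lam u)).mul_right (negMulLog (lam u))
    rw [← hlam] at h1
    rcases eq_or_ne (lam u) 0 with hz | hz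
    · simp [hz, hasSum_zero]
    · rwa [div_self hz, one_mul] at h1
  rw [eSum_def (h.psd M).isHermitian]
  refine hasSum_le (fun i => ?_) (hasSum_sum fun u _ => hW u) hA.hasSum
  have hw : ∀ u, 0 ≤ p i * Complex.normSq (coord M h v u i) / lam u := fun u =>
    div_nonneg (mul_nonneg (hd.nonneg i) (Complex.normSq_nonneg _)) (hl0 u)
  have hJ := jensen_sub Finset.univ (fun u _ => hw u) (bessel hd h M i) (fun u _ => hl0 u) le_rfl
  have hpt : ∑ u, p i * Complex.normSq (coord M h v u i) / lam u * lam u = p i * inBox v M i := by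
    rw [← sum_coord h M i, Finset.mul_sum]
    refine Finset.sum_congr rfl fun u _ => ?_
    rcases eq_or_ne (lam u) 0 with hz | hz
    · have h1 := (hasSum_zero_iff_of_nonneg fun j => mul_nonneg (hd.nonneg j)
        (Complex.normSq_nonneg (coord M h v u j))).1 (by
          have := hasSum_coord_eig hd h M u
          rwa [← hlam, hz] at this)
      rw [hz, mul_zero]
      exact (congrFun h1 i).symm
    · exact div_mul_cancel₀ _ hz
  simp only [hpt, negMulLog_zero, mul_zero, add_zero] at hJ
  exact hJ

end Section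

/-- The entropy of a state equals `∑ -p log p` over the eigenvalues of any spectral decomposition. -/
theorem hasSum_Ent (hd : IsDecomp ρ p v) (h : IsSubState ρ E) :
    HasSum (fun i => negMulLog (p i)) (Ent ρ) := by
  have hbox : ∀ i, Tendsto (fun M => inBox v M i) atTop (𝓝 1) := fun i =>
    (hd.unit i).comp tendsto_box
  have hnn : ∀ i, 0 ≤ negMulLog (p i) := fun i => negMulLog_nonneg (hd.nonneg i) (hd.le_one h i)
  have hlow : ∀ T : Finset ι, ∑ i ∈ T, negMulLog (p i) ≤ Ent ρ := by
    intro T
    have h1 : Tendsto (fun M => ∑ i ∈ T, inBox v M i * negMulLog (p i)) atTop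
        (𝓝 (∑ i ∈ T, 1 * negMulLog (p i))) :=
      tendsto_finsetSum T fun i _ => (hbox i).mul_const _
    simp only [one_mul] at h1
    exact le_of_tendsto_of_tendsto' h1 h.tendsto_Ent fun M => sum_inBox_le hd h M T
  have hf : Summable fun i => negMulLog (p i) := summable_of_sum_le hnn hlow
  have hup : Tendsto (fun M => ∑' i, negMulLog (p i * inBox v M i)) atTop
      (𝓝 (∑' i, negMulLog (p i))) := by
    refine tendsto_tsum_of_dominated_convergence (hf.add (hd.summable h)) (fun i => ?_)
      (Eventually.of_forall fun M i => ?_)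
    · simpa [Function.comp_def] using
        (continuous_negMulLog.tendsto _).comp ((hbox i).const_mul (p i))
    · have hm := inBox_mem hd M i
      rw [Real.norm_of_nonneg (negMulLog_nonneg (mul_nonneg (hd.nonneg i) hm.1)
        (mul_le_one₀ (hd.le_one h i) hm.1 hm.2))]
      exact negMulLog_mul_le hm.1 hm.2 (hd.nonneg i) (hd.le_one h i)
  have h2 : Ent ρ ≤ ∑' i, negMulLog (p i) :=
    le_of_tendsto_of_tendsto' h.tendsto_Ent hup fun M => eSum_le_tsum hd h M hf
  rw [le_antisymm h2 (hf.tsum_le_of_sum_le hlow)]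
  exact hf.hasSum

end Vale.Agent.P369.Extend
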